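import Vale.Agent.P121.Kernel

namespace Vale.Agent.P121

open scoped RealInnerProductSpace
open Metric

/-- Real-valued Coulomb cost. -/
noncomputable def cR (x y z : V) : ℝ := ‖x - y‖⁻¹ + ‖x - z‖⁻¹ + ‖y - z‖⁻¹

lemma cR_swap12 (x y z : V) : cR y x z = cR x y z := by
  simp only [cR, norm_sub_rev y x]; ring

lemma cR_swap23 (x y z : V) : cR x z y = cR x y z := by
  simp only [cR, norm_sub_rev z y]; ring

noncomputable def kk : ℝ := 1000000

/-- The radius of the central cluster. -/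
noncomputable def dd : ℝ := 1 / 10000000000

/-- Third point of a branch, solving the first stationarity equation. -/
noncomputable def Zf (x y : V) : V := x - ginv (-(kk • x) - gr (x - y))

noncomputable def Phi (u x y : V) : V :=
  u - (1 / kk) • ((5/4 : ℝ) • u + gr (y - x) + gr (y - Zf x y))

open Classical in
noncomputable def Ymap (u x : V) : V :=
  Classical.epsilon fun y => y ∈ closedBall u (1/1000000) ∧ Phi u x y = y

noncomputable def Zmap (u x : V) : V := Zf x (Ymap u x)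

/-- The function minimized along a branch. -/
noncomputable def Fb (u x y z : V) : ℝ :=
  cR x y z - 5/2 + kk/2 * ‖x‖^2 + 5/4 * ⟪u, y - u⟫ + kk/2 * ‖y - u‖^2

lemma near_lb (a b p : V) (r s : ℝ) (hp : ‖a - b‖ = r) (h : ‖p - (a - b)‖ ≤ s) :
    r - s ≤ ‖p‖ ∧ ‖p‖ ≤ r + s := by
  have h1 := abs_norm_sub_norm_le p (a - b)
  rw [hp, abs_le] at h1
  constructor <;> linarith

lemma norm_two (u : V) (hu : ‖u‖ = 1) : ‖u - -u‖ = 2 := by
  rw [sub_neg_eq_add, ← two_smul ℝ u, norm_smul, hu]; norm_num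

/-- distances in the three regions -/
lemma dists (u x y z : V) (hu : ‖u‖ = 1) (r1 r2 r3 : ℝ) (hx : ‖x‖ ≤ r1) (hy : ‖y - u‖ ≤ r2)
    (hz : ‖z + u‖ ≤ r3) :
    (1 - (r1 + r2) ≤ ‖x - y‖ ∧ ‖x - y‖ ≤ 1 + (r1 + r2)) ∧
    (1 - (r1 + r3) ≤ ‖x - z‖ ∧ ‖x - z‖ ≤ 1 + (r1 + r3)) ∧
    (2 - (r2 + r3) ≤ ‖y - z‖ ∧ ‖y - z‖ ≤ 2 + (r2 + r3)) := by
  refine ⟨near_lb 0 u _ _ _ (by simpa using hu) ?_, near_lb 0 (-u) _ _ _ (by simpa using hu) ?_,
    near_lb u (-u) _ _ _ (norm_two u hu) ?_⟩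
  · have : x - y - (0 - u) = x - (y - u) := by abel
    rw [this]; exact (norm_sub_le _ _).trans (by linarith)
  · have : x - z - (0 - -u) = x - (z + u) := by abel
    rw [this]; exact (norm_sub_le _ _).trans (by linarith)
  · have : y - z - (u - -u) = (y - u) - (z + u) := by abel
    rw [this]; exact (norm_sub_le _ _).trans (by linarith)

lemma v_est (u x y : V) (hu : ‖u‖ = 1) (hx : ‖x‖ ≤ dd) (hy : ‖y - u‖ ≤ 1/1000000) :
    ‖(-(kk • x) - gr (x - y)) + u‖ ≤ 133/1000000 ∧ 1/9 ≤ ‖-(kk • x) - gr (x - y)‖ := by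
  have hxy : ‖(x - y) - (-u)‖ ≤ dd + 1/1000000 := by
    have : x - y - -u = x - (y - u) := by abel
    rw [this]; exact (norm_sub_le _ _).trans (by linarith)
  have hl := (near_lb 0 u (x - y) 1 (dd + 1/1000000) (by simpa using hu) (by simpa using hxy)).1
  have hg := gr_lip (x - y) (-u) (by rw [dd] at hl; linarith) (by rw [norm_neg, hu]; norm_num)
  have e : -(kk • x) - gr (x - y) + u = -(kk • x) - (gr (x - y) - gr (-u)) := by
    rw [gr_neg, gr_unit u hu, neg_neg]; abel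
  have hb : ‖-(kk • x) - gr (x - y) + u‖ ≤ 133/1000000 := by
    rw [e]
    refine (norm_sub_le _ _).trans ?_
    rw [norm_neg, norm_smul, Real.norm_eq_abs, abs_of_pos (by norm_num [kk] : (0:ℝ) < kk)]
    simp only [kk, dd] at *
    linarith
  refine ⟨hb, ?_⟩
  have h1 := abs_norm_sub_norm_le (-(kk • x) - gr (x - y)) (-u)
  rw [sub_neg_eq_add, norm_neg, hu] at h1
  have := (abs_le.1 h1).1
  linarith

lemma Zf_est (u x y : V) (hu : ‖u‖ = 1) (hx : ‖x‖ ≤ dd) (hy : ‖y - u‖ ≤ 1/1000000) :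
    ‖Zf x y + u‖ ≤ 11/1000 := by
  obtain ⟨h1, h2⟩ := v_est u x y hu hx hy
  have h3 := ginv_lip _ (-u) h2 (by rw [norm_neg, hu]; norm_num)
  rw [ginv_neg_unit u hu, sub_neg_eq_add] at h3
  have : Zf x y + u = x - (ginv (-(kk • x) - gr (x - y)) - u) := by rw [Zf]; abel
  rw [this]
  refine (norm_sub_le _ _).trans ?_
  simp only [dd] at hx
  linarith

lemma Zf_lip (u x x' y y' : V) (hu : ‖u‖ = 1) (hx : ‖x‖ ≤ dd) (hy : ‖y - u‖ ≤ 1/1000000)
    (hx' : ‖x'‖ ≤ dd) (hy' : ‖y' - u‖ ≤ 1/1000000) :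
    ‖Zf x y - Zf x' y'‖ ≤ 82000000 * ‖x - x'‖ + 2592 * ‖y - y'‖ := by
  obtain ⟨_, h2⟩ := v_est u x y hu hx hy
  obtain ⟨_, h2'⟩ := v_est u x' y' hu hx' hy'
  have h3 := ginv_lip _ _ h2 h2'
  have d1 := (dists u x y (-u) hu dd (1/1000000) 0 hx hy (by simp)).1.1
  have d1' := (dists u x' y' (-u) hu dd (1/1000000) 0 hx' hy' (by simp)).1.1
  have hg := gr_lip (x - y) (x' - y') (by simp only [dd] at d1; linarith)
    (by simp only [dd] at d1'; linarith)
  have ha : ‖(-(kk • x) - gr (x - y)) - (-(kk • x') - gr (x' - y'))‖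
      ≤ kk * ‖x - x'‖ + ‖gr (x - y) - gr (x' - y')‖ := by
    have : (-(kk • x) - gr (x - y)) - (-(kk • x') - gr (x' - y'))
        = -(kk • (x - x')) - (gr (x - y) - gr (x' - y')) := by rw [smul_sub]; abel
    rw [this]
    refine (norm_sub_le _ _).trans ?_
    rw [norm_neg, norm_smul, Real.norm_eq_abs, abs_of_pos (by norm_num [kk] : (0:ℝ) < kk)]
  have hb : ‖(x - y) - (x' - y')‖ ≤ ‖x - x'‖ + ‖y - y'‖ := by
    have : (x - y) - (x' - y') = (x - x') - (y - y') := by abel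
    rw [this]; exact norm_sub_le _ _
  have : Zf x y - Zf x' y' = (x - x') - (ginv (-(kk • x) - gr (x - y))
      - ginv (-(kk • x') - gr (x' - y'))) := by simp only [Zf]; abel
  rw [this]
  refine (norm_sub_le _ _).trans ?_
  simp only [kk] at *
  nlinarith [norm_nonneg (x - x'), norm_nonneg (y - y')]

lemma norm_kk_inv_smul (v : V) : ‖(1 / kk) • v‖ = ‖v‖ / kk := by
  rw [norm_smul, Real.norm_eq_abs, abs_of_pos (by norm_num [kk] : (0:ℝ) < 1 / kk)]
  ring

lemma Phi_mapsTo (u x y : V) (hu : ‖u‖ = 1) (hx : ‖x‖ ≤ dd) (hy : ‖y - u‖ ≤ 1/1000000) :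
    ‖Phi u x y - u‖ ≤ 1/1000000 := by
  have hz := Zf_est u x y hu hx hy
  obtain ⟨⟨d1, -⟩, -, ⟨d3, -⟩⟩ := dists u x y (Zf x y) hu dd (1/1000000) (11/1000) hx hy hz
  simp only [dd] at d1 d3
  have g1 := gr_lip (y - x) u (by rw [norm_sub_rev]; linarith) (by rw [hu]; norm_num)
  have g2 := gr_lip (y - Zf x y) ((2:ℝ) • u) (by linarith) (by rw [norm_smul, hu]; norm_num)
  rw [gr_unit u hu] at g1
  rw [gr_two_unit u hu] at g2
  have e : Phi u x y - u
      = -((1 / kk) • ((gr (y - x) - -u) + (gr (y - Zf x y) - -((1/4:ℝ) • u)))) := by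
    simp only [Phi]; module
  rw [e, norm_neg, norm_kk_inv_smul]
  have h1 : ‖(y - x) - u‖ ≤ 1/1000000 + dd := by
    have : y - x - u = (y - u) - x := by abel
    rw [this]; exact (norm_sub_le _ _).trans (by linarith)
  have h2 : ‖(y - Zf x y) - (2:ℝ) • u‖ ≤ 1/1000000 + 11/1000 := by
    have : y - Zf x y - (2:ℝ) • u = (y - u) - (Zf x y + u) := by module
    rw [this]; exact (norm_sub_le _ _).trans (by linarith)
  rw [div_le_iff₀ (by norm_num [kk])]
  refine (norm_add_le _ _).trans ?_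
  simp only [kk, dd] at *
  linarith

lemma Phi_lip (u x x' y y' : V) (hu : ‖u‖ = 1) (hx : ‖x‖ ≤ dd) (hy : ‖y - u‖ ≤ 1/1000000)
    (hx' : ‖x'‖ ≤ dd) (hy' : ‖y' - u‖ ≤ 1/1000000) :
    ‖Phi u x y - Phi u x' y'‖ ≤ 2700 * ‖x - x'‖ + 1/10 * ‖y - y'‖ := by
  have hz := Zf_est u x y hu hx hy
  have hz' := Zf_est u x' y' hu hx' hy'
  obtain ⟨⟨d1, -⟩, -, ⟨d3, -⟩⟩ := dists u x y (Zf x y) hu dd (1/1000000) (11/1000) hx hy hz
  obtain ⟨⟨d1', -⟩, -, ⟨d3', -⟩⟩ :=
    dists u x' y' (Zf x' y') hu dd (1/1000000) (11/1000) hx' hy' hz'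
  simp only [dd] at d1 d3 d1' d3'
  have g1 := gr_lip (y - x) (y' - x') (by rw [norm_sub_rev]; linarith)
    (by rw [norm_sub_rev]; linarith)
  have g2 := gr_lip (y - Zf x y) (y' - Zf x' y') (by linarith) (by linarith)
  have hl := Zf_lip u x x' y y' hu hx hy hx' hy'
  have e : Phi u x y - Phi u x' y' = -((1 / kk) • ((gr (y - x) - gr (y' - x'))
      + (gr (y - Zf x y) - gr (y' - Zf x' y')))) := by
    simp only [Phi]; module
  rw [e, norm_neg, norm_kk_inv_smul, div_le_iff₀ (by norm_num [kk])]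
  have h1 : ‖(y - x) - (y' - x')‖ ≤ ‖y - y'‖ + ‖x - x'‖ := by
    have : (y - x) - (y' - x') = (y - y') - (x - x') := by abel
    rw [this]; exact norm_sub_le _ _
  have h2 : ‖(y - Zf x y) - (y' - Zf x' y')‖ ≤ ‖y - y'‖ + ‖Zf x y - Zf x' y'‖ := by
    have : (y - Zf x y) - (y' - Zf x' y') = (y - y') - (Zf x y - Zf x' y') := by abel
    rw [this]; exact norm_sub_le _ _
  refine (norm_add_le _ _).trans ?_
  simp only [kk] at *
  nlinarith [norm_nonneg (x - x'), norm_nonneg (y - y')]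

lemma Ymap_spec (u x : V) (hu : ‖u‖ = 1) (hx : ‖x‖ ≤ dd) :
    ‖Ymap u x - u‖ ≤ 1/1000000 ∧ Phi u x (Ymap u x) = Ymap u x := by
  have hex : ∃ y, y ∈ closedBall u (1/1000000) ∧ Phi u x y = y := by
    have hm : Set.MapsTo (Phi u x) (closedBall u (1/1000000)) (closedBall u (1/1000000)) := by
      intro y hy
      rw [mem_closedBall_iff_norm] at hy ⊢
      exact Phi_mapsTo u x y hu hx hy
    have hc : ContractingWith (1/2 : NNReal)
        (hm.restrict (Phi u x) (closedBall u (1/1000000)) (closedBall u (1/1000000))) := by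
      refine ⟨?_, LipschitzWith.of_dist_le_mul ?_⟩
      · rw [← NNReal.coe_lt_coe]; push_cast; norm_num
      · intro a b
        have ha := mem_closedBall_iff_norm.1 a.2
        have hb := mem_closedBall_iff_norm.1 b.2
        have := Phi_lip u x x a.1 b.1 hu hx ha hx hb
        simp only [sub_self, norm_zero, mul_zero, zero_add] at this
        simp only [Subtype.dist_eq, dist_eq_norm]
        rw [show ((1/2 : NNReal) : ℝ) = 1/2 by push_cast; rfl]
        have h0 := norm_nonneg (a.1 - b.1)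
        exact this.trans (by linarith)
    obtain ⟨y, hy, hfix, -⟩ := hc.exists_fixedPoint' (x := u) isClosed_closedBall.isComplete hm
      (mem_closedBall_self (by norm_num)) (edist_ne_top _ _)
    exact ⟨y, hy, hfix⟩
  have h := Classical.epsilon_spec hex
  exact ⟨mem_closedBall_iff_norm.1 h.1, h.2⟩

lemma Zmap_est (u x : V) (hu : ‖u‖ = 1) (hx : ‖x‖ ≤ dd) : ‖Zmap u x + u‖ ≤ 11/1000 :=
  Zf_est u x _ hu hx (Ymap_spec u x hu hx).1

lemma Ymap_lip (u x x' : V) (hu : ‖u‖ = 1) (hx : ‖x‖ ≤ dd) (hx' : ‖x'‖ ≤ dd) :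
    ‖Ymap u x - Ymap u x'‖ ≤ 3000 * ‖x - x'‖ := by
  obtain ⟨hy, hf⟩ := Ymap_spec u x hu hx
  obtain ⟨hy', hf'⟩ := Ymap_spec u x' hu hx'
  have := Phi_lip u x x' _ _ hu hx hy hx' hy'
  rw [hf, hf'] at this
  nlinarith [norm_nonneg (x - x'), norm_nonneg (Ymap u x - Ymap u x')]

lemma Zmap_lip (u x x' : V) (hu : ‖u‖ = 1) (hx : ‖x‖ ≤ dd) (hx' : ‖x'‖ ≤ dd) :
    ‖Zmap u x - Zmap u x'‖ ≤ 100000000 * ‖x - x'‖ := by
  have := Zf_lip u x x' _ _ hu hx (Ymap_spec u x hu hx).1 hx' (Ymap_spec u x' hu hx').1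
  have := Ymap_lip u x x' hu hx hx'
  rw [Zmap, Zmap]
  nlinarith [norm_nonneg (x - x')]

lemma eq1 (u x : V) (hu : ‖u‖ = 1) (hx : ‖x‖ ≤ dd) :
    kk • x + gr (x - Ymap u x) + gr (x - Zmap u x) = 0 := by
  have h2 := (v_est u x _ hu hx (Ymap_spec u x hu hx).1).2
  have e : x - Zmap u x = ginv (-(kk • x) - gr (x - Ymap u x)) := by
    rw [Zmap, Zf]; abel
  rw [e, gr_ginv _ (by intro h; rw [h, norm_zero] at h2; norm_num at h2)]
  abel

lemma eq2 (u x : V) (hu : ‖u‖ = 1) (hx : ‖x‖ ≤ dd) :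
    kk • (Ymap u x - u) + (5/4 : ℝ) • u + gr (Ymap u x - x) + gr (Ymap u x - Zmap u x) = 0 := by
  have h : u - (1 / kk) • ((5/4 : ℝ) • u + gr (Ymap u x - x) + gr (Ymap u x - Zmap u x))
      = Ymap u x := (Ymap_spec u x hu hx).2
  set w := (5/4 : ℝ) • u + gr (Ymap u x - x) + gr (Ymap u x - Zmap u x) with hw
  have hk : kk • (Ymap u x - u) = -w := by
    rw [← h]
    rw [show u - (1 / kk) • w - u = -((1 / kk) • w) by abel, smul_neg, smul_smul,
      mul_one_div_cancel (by norm_num [kk]), one_smul]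
  rw [show kk • (Ymap u x - u) + (5/4 : ℝ) • u + gr (Ymap u x - x) + gr (Ymap u x - Zmap u x)
    = kk • (Ymap u x - u) + w by rw [hw]; abel, hk]
  abel

/-- Strict minimality along a branch. -/
lemma Fb_min (u x x' y' : V) (hu : ‖u‖ = 1) (hx : ‖x‖ ≤ dd)
    (hx' : ‖x'‖ ≤ 1/100) (hy' : ‖y' - u‖ ≤ 1/100) :
    Fb u x (Ymap u x) (Zmap u x) + (‖x' - x‖^2 + ‖y' - Ymap u x‖^2)
      ≤ Fb u x' y' (Zmap u x) := by
  have hy := (Ymap_spec u x hu hx).1
  have hz := Zmap_est u x hu hx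
  have e1 := eq1 u x hu hx
  have e2 := eq2 u x hu hx
  set y := Ymap u x
  set z := Zmap u x
  obtain ⟨⟨a1, -⟩, ⟨a2, -⟩, ⟨a3, -⟩⟩ := dists u x y z hu dd (1/1000000) (11/1000) hx hy hz
  obtain ⟨⟨b1, -⟩, ⟨b2, -⟩, ⟨b3, -⟩⟩ := dists u x' y' z hu (1/100) (1/100) (11/1000) hx' hy' hz
  simp only [dd] at a1 a2
  have t1 := inv_norm_ge (x - y) (x' - y') (by linarith) (by linarith)
  have t2 := inv_norm_ge (x - z) (x' - z) (by linarith) (by linarith)
  have t3 := inv_norm_ge (y - z) (y' - z) (by linarith) (by linarith)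
  set a := x' - x
  set b := y' - y
  rw [show x' - y' - (x - y) = a - b by simp only [a, b]; abel] at t1
  rw [show x' - z - (x - z) = a by simp only [a]; abel] at t2
  rw [show y' - z - (y - z) = b by simp only [b]; abel] at t3
  have hab : ‖a - b‖^2 ≤ 2 * ‖a‖^2 + 2 * ‖b‖^2 := by
    nlinarith [norm_sub_le a b, norm_nonneg (a - b), sq_nonneg (‖a‖ - ‖b‖)]
  have n1 : ‖x'‖^2 = ‖x‖^2 + 2 * ⟪x, a⟫ + ‖a‖^2 := by
    rw [← norm_add_sq_real, show x + a = x' by simp only [a]; abel]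
  have n2 : ‖y' - u‖^2 = ‖y - u‖^2 + 2 * ⟪y - u, b⟫ + ‖b‖^2 := by
    rw [← norm_add_sq_real, show y - u + b = y' - u by simp only [b]; abel]
  have n3 : ⟪u, y' - u⟫ = ⟪u, y - u⟫ + ⟪u, b⟫ := by
    rw [← inner_add_right, show y - u + b = y' - u by simp only [b]; abel]
  have l1 : kk * ⟪x, a⟫ + ⟪gr (x - y), a⟫ + ⟪gr (x - z), a⟫ = 0 := by
    have := congrArg (fun w => ⟪w, a⟫) e1
    simpa [inner_add_left, real_inner_smul_left] using this
  have l2 : kk * ⟪y - u, b⟫ + 5/4 * ⟪u, b⟫ - ⟪gr (x - y), b⟫ + ⟪gr (y - z), b⟫ = 0 := by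
    rw [gr_sub_swap x y] at e2
    have := congrArg (fun w => ⟪w, b⟫) e2
    simp only [inner_add_left, real_inner_smul_left, inner_neg_left, inner_zero_left] at this
    linarith
  rw [inner_sub_right] at t1
  simp only [Fb, cR, n1, n2, n3]
  simp only [kk] at *
  nlinarith [sq_nonneg ‖a‖, sq_nonneg ‖b‖]

/-- Both partner maps are injective with Lipschitz inverse. -/
lemma antilip (u x x' : V) (hu : ‖u‖ = 1) (hx : ‖x‖ ≤ dd) (hx' : ‖x'‖ ≤ dd) :
    ‖x - x'‖ ≤ 7000 * ‖Ymap u x - Ymap u x'‖ ∧ ‖x - x'‖ ≤ ‖Zmap u x - Zmap u x'‖ := by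
  have hy := (Ymap_spec u x hu hx).1
  have hz := Zmap_est u x hu hx
  have hy' := (Ymap_spec u x' hu hx').1
  have hz' := Zmap_est u x' hu hx'
  have e1 := eq1 u x hu hx
  have e2 := eq2 u x hu hx
  have e1' := eq1 u x' hu hx'
  have e2' := eq2 u x' hu hx'
  set y := Ymap u x
  set z := Zmap u x
  set y' := Ymap u x'
  set z' := Zmap u x'
  obtain ⟨⟨a1, -⟩, ⟨a2, -⟩, ⟨a3, a3u⟩⟩ := dists u x y z hu dd (1/1000000) (11/1000) hx hy hz
  obtain ⟨⟨b1, -⟩, ⟨b2, -⟩, ⟨b3, b3u⟩⟩ :=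
    dists u x' y' z' hu dd (1/1000000) (11/1000) hx' hy' hz'
  simp only [dd] at a1 a2 b1 b2
  have g1 := gr_lip (x - y) (x' - y') (by linarith) (by linarith)
  have g2 := gr_lip (x - z) (x' - z') (by linarith) (by linarith)
  have g3 := gr_lip (y - z) (y' - z') (by linarith) (by linarith)
  have g4 := gr_antilip (y - z) (y' - z')
    (by intro h; rw [h, norm_zero] at a3; linarith)
    (by intro h; rw [h, norm_zero] at b3; linarith) (by linarith) (by linarith)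
  have s1 : ‖(x - y) - (x' - y')‖ ≤ ‖x - x'‖ + ‖y - y'‖ := by
    rw [show (x - y) - (x' - y') = (x - x') - (y - y') by abel]; exact norm_sub_le _ _
  have s2 : ‖(x - z) - (x' - z')‖ ≤ ‖x - x'‖ + ‖z - z'‖ := by
    rw [show (x - z) - (x' - z') = (x - x') - (z - z') by abel]; exact norm_sub_le _ _
  have s3 : ‖(y - z) - (y' - z')‖ ≤ ‖y - y'‖ + ‖z - z'‖ := by
    rw [show (y - z) - (y' - z') = (y - y') - (z - z') by abel]; exact norm_sub_le _ _
  have s4 : ‖z - z'‖ ≤ ‖y - y'‖ + ‖(y - z) - (y' - z')‖ := by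
    calc ‖z - z'‖ = ‖(y - y') - ((y - z) - (y' - z'))‖ := by congr 1; abel
      _ ≤ _ := norm_sub_le _ _
  have k1 : kk * ‖x - x'‖ ≤ ‖gr (x - y) - gr (x' - y')‖ + ‖gr (x - z) - gr (x' - z')‖ := by
    have : kk • (x - x') = -((gr (x - y) - gr (x' - y')) + (gr (x - z) - gr (x' - z'))) := by
      rw [← sub_eq_zero]
      calc _ = (kk • x + gr (x - y) + gr (x - z)) - (kk • x' + gr (x' - y') + gr (x' - z')) := by
            module
        _ = 0 := by rw [e1, e1', sub_zero]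
    have h := congrArg norm this
    rw [norm_smul, Real.norm_eq_abs, abs_of_pos (by norm_num [kk] : (0:ℝ) < kk), norm_neg] at h
    rw [h]; exact norm_add_le _ _
  rw [gr_sub_swap x y] at e2
  rw [gr_sub_swap x' y'] at e2'
  have hkey : gr (y - z) - gr (y' - z')
      = -(kk • (y - y')) + (gr (x - y) - gr (x' - y')) := by
    rw [← sub_eq_zero]
    calc _ = (kk • (y - u) + (5/4:ℝ) • u + -gr (x - y) + gr (y - z))
          - (kk • (y' - u) + (5/4:ℝ) • u + -gr (x' - y') + gr (y' - z')) := by module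
      _ = 0 := by rw [e2, e2', sub_zero]
  have k2 : ‖gr (y - z) - gr (y' - z')‖ ≤ kk * ‖y - y'‖ + ‖gr (x - y) - gr (x' - y')‖ := by
    rw [hkey]
    refine (norm_add_le _ _).trans ?_
    rw [norm_neg, norm_smul, Real.norm_eq_abs, abs_of_pos (by norm_num [kk] : (0:ℝ) < kk)]
  have k3 : kk * ‖y - y'‖ ≤ ‖gr (y - z) - gr (y' - z')‖ + ‖gr (x - y) - gr (x' - y')‖ := by
    have h := congrArg norm (show kk • (y - y')
      = (gr (x - y) - gr (x' - y')) - (gr (y - z) - gr (y' - z')) by rw [hkey]; abel)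
    rw [norm_smul, Real.norm_eq_abs, abs_of_pos (by norm_num [kk] : (0:ℝ) < kk)] at h
    rw [h]; exact (norm_sub_le _ _).trans (by linarith)
  simp only [kk] at *
  have := norm_nonneg (x - x')
  have := norm_nonneg (y - y')
  have := norm_nonneg (z - z')
  constructor <;> linarith

end Vale.Agent.P121
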