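import Vale.Agent.P121.Branch

namespace Vale.Agent.P121

open scoped RealInnerProductSpace
open Metric Set

/-- The two branch directions. -/
noncomputable def uu : Fin 2 → V :=
  fun i => if i = 0 then EuclideanSpace.single 0 1 else EuclideanSpace.single 1 1

lemma norm_uu (i : Fin 2) : ‖uu i‖ = 1 := by
  unfold uu; split_ifs <;> simp

lemma inner_uu {i j : Fin 2} (h : i ≠ j) : ⟪uu i, uu j⟫ = 0 := by
  fin_cases i <;> fin_cases j <;> simp_all [uu, EuclideanSpace.inner_single_left]

lemma diag_dist {i j : Fin 2} (h : i ≠ j) (a b : ℝ) (ha : a = 1 ∨ a = -1) (hb : b = 1 ∨ b = -1) :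
    1 ≤ ‖a • uu i - b • uu j‖ ∧ ‖a • uu i - b • uu j‖ ≤ 14143 / 10000 := by
  have hs : ‖a • uu i - b • uu j‖ ^ 2 = 2 := by
    rw [norm_sub_sq_real, norm_smul, norm_smul, real_inner_smul_left, real_inner_smul_right,
      inner_uu h, norm_uu, norm_uu]
    rcases ha with rfl | rfl <;> rcases hb with rfl | rfl <;> norm_num
  constructor <;> nlinarith [norm_nonneg (a • uu i - b • uu j)]

/-- Labels of the five clusters. -/
inductive Lab : Type where
  | a : Lab
  | b : Fin 2 → Lab
  | c : Fin 2 → Lab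
deriving DecidableEq

instance : Fintype Lab :=
  ⟨{Lab.a, Lab.b 0, Lab.b 1, Lab.c 0, Lab.c 1}, by
    intro l; cases l with
    | a => simp
    | b i => fin_cases i <;> simp
    | c i => fin_cases i <;> simp⟩

noncomputable def A0 : Set V := closedBall 0 dd

noncomputable def piece : Lab → Set V
  | .a => A0
  | .b i => Ymap (uu i) '' A0
  | .c i => Zmap (uu i) '' A0

noncomputable def ctr : Lab → V
  | .a => 0
  | .b i => uu i
  | .c i => -uu i

noncomputable def invZ (i : Fin 2) : V → V := Function.invFunOn (Zmap (uu i)) A0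

noncomputable def invY (i : Fin 2) : V → V := Function.invFunOn (Ymap (uu i)) A0

/-- The potential on each cluster. -/
noncomputable def ph : Lab → V → ℝ
  | .a => fun x => 5/2 - kk/2 * ‖x‖^2
  | .b i => fun y => -(5/4) * ⟪uu i, y - uu i⟫ - kk/2 * ‖y - uu i‖^2
  | .c i => fun z => Fb (uu i) (invZ i z) (Ymap (uu i) (invZ i z)) z

lemma mem_A0 {x : V} : x ∈ A0 ↔ ‖x‖ ≤ dd := mem_closedBall_zero_iff

lemma Y_injOn (i : Fin 2) : InjOn (Ymap (uu i)) A0 := by
  intro x hx x' hx' h
  have := (antilip (uu i) x x' (norm_uu i) (mem_A0.1 hx) (mem_A0.1 hx')).1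
  rw [h, sub_self, norm_zero, mul_zero, norm_le_zero_iff, sub_eq_zero] at this
  exact this

lemma Z_injOn (i : Fin 2) : InjOn (Zmap (uu i)) A0 := by
  intro x hx x' hx' h
  have := (antilip (uu i) x x' (norm_uu i) (mem_A0.1 hx) (mem_A0.1 hx')).2
  rw [h, sub_self, norm_zero, norm_le_zero_iff, sub_eq_zero] at this
  exact this

lemma invZ_Z (i : Fin 2) {x : V} (hx : x ∈ A0) : invZ i (Zmap (uu i) x) = x :=
  (Z_injOn i).leftInvOn_invFunOn hx

lemma invY_Y (i : Fin 2) {x : V} (hx : x ∈ A0) : invY i (Ymap (uu i) x) = x :=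
  (Y_injOn i).leftInvOn_invFunOn hx

lemma piece_near {l : Lab} {p : V} (hp : p ∈ piece l) : ‖p - ctr l‖ ≤ 11/1000 := by
  cases l with
  | a =>
    have := mem_A0.1 hp
    simp only [dd] at this
    simp only [ctr, sub_zero]
    linarith
  | b i =>
    obtain ⟨x, hx, rfl⟩ := hp
    exact (Ymap_spec (uu i) x (norm_uu i) (mem_A0.1 hx)).1.trans (by norm_num)
  | c i =>
    obtain ⟨x, hx, rfl⟩ := hp
    simp only [ctr, sub_neg_eq_add]
    exact Zmap_est (uu i) x (norm_uu i) (mem_A0.1 hx)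

lemma piece_dist {l m : Lab} {p q : V} (hp : p ∈ piece l) (hq : q ∈ piece m) :
    ‖ctr l - ctr m‖ - 22/1000 ≤ ‖p - q‖ ∧ ‖p - q‖ ≤ ‖ctr l - ctr m‖ + 22/1000 := by
  refine near_lb (ctr l) (ctr m) (p - q) _ _ rfl ?_
  rw [show p - q - (ctr l - ctr m) = (p - ctr l) - (q - ctr m) by abel]
  exact (norm_sub_le _ _).trans (by linarith [piece_near hp, piece_near hq])

lemma norm_ctr_le (l : Lab) : ‖ctr l‖ ≤ 1 := by
  cases l <;> simp [ctr, norm_uu]

lemma ctr_cross {i j : Fin 2} (h : i ≠ j) (l m : Lab) (hl : l = .b i ∨ l = .c i)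
    (hm : m = .b j ∨ m = .c j) : 1 ≤ ‖ctr l - ctr m‖ ∧ ‖ctr l - ctr m‖ ≤ 14143/10000 := by
  rcases hl with rfl | rfl <;> rcases hm with rfl | rfl <;> simp only [ctr]
  · simpa using diag_dist h 1 1 (Or.inl rfl) (Or.inl rfl)
  · simpa using diag_dist h 1 (-1) (Or.inl rfl) (Or.inr rfl)
  · simpa using diag_dist h (-1) 1 (Or.inr rfl) (Or.inl rfl)
  · simpa using diag_dist h (-1) (-1) (Or.inr rfl) (Or.inr rfl)

lemma ctr_far {l m : Lab} (h : l ≠ m) : 1 ≤ ‖ctr l - ctr m‖ := by
  cases l with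
  | a => cases m <;> simp_all [ctr, norm_uu]
  | b i =>
    cases m with
    | a => simp [ctr, norm_uu]
    | b j => exact (ctr_cross (i := i) (j := j) (by simpa using h) _ _ (.inl rfl) (.inl rfl)).1
    | c j =>
      rcases eq_or_ne i j with rfl | hij
      · simp only [ctr, norm_two _ (norm_uu i)]; norm_num
      · exact (ctr_cross hij _ _ (.inl rfl) (.inr rfl)).1
  | c i =>
    cases m with
    | a => simp [ctr, norm_uu]
    | c j => exact (ctr_cross (i := i) (j := j) (by simpa using h) _ _ (.inr rfl) (.inr rfl)).1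
    | b j =>
      rcases eq_or_ne i j with rfl | hij
      · simp only [ctr]; rw [norm_sub_rev, norm_two _ (norm_uu i)]; norm_num
      · exact (ctr_cross hij _ _ (.inr rfl) (.inl rfl)).1

lemma piece_unique {l m : Lab} {p : V} (hp : p ∈ piece l) (hq : p ∈ piece m) : l = m := by
  by_contra h
  have := (piece_dist hp hq).1
  rw [sub_self, norm_zero] at this
  linarith [ctr_far h]

lemma inv_between {t a b : ℝ} (ha : 0 < a) (h1 : a ≤ t) (h2 : t ≤ b) :
    1 / b ≤ t⁻¹ ∧ t⁻¹ ≤ 1 / a := by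
  rw [← one_div]
  exact ⟨one_div_le_one_div_of_le (ha.trans_le h1) h2, one_div_le_one_div_of_le ha h1⟩

lemma ph_bound {l : Lab} {p : V} (hp : p ∈ piece l) :
    (if l = Lab.a then 249/100 else -(1/50)) ≤ ph l p ∧
      ph l p ≤ (if l = Lab.a then 5/2 else 1/50) := by
  cases l with
  | a =>
    have h := mem_A0.1 hp
    have h0 := norm_nonneg p
    simp only [dd] at h
    simp only [ph, kk, if_true]
    constructor <;> nlinarith
  | b i =>
    obtain ⟨x, hx, rfl⟩ := hp
    have h := (Ymap_spec (uu i) x (norm_uu i) (mem_A0.1 hx)).1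
    have hin := abs_real_inner_le_norm (uu i) (Ymap (uu i) x - uu i)
    rw [norm_uu, one_mul, abs_le] at hin
    have h0 := norm_nonneg (Ymap (uu i) x - uu i)
    simp only [ph, kk, reduceCtorEq, if_false]
    constructor <;> nlinarith
  | c i =>
    obtain ⟨x, hx, rfl⟩ := hp
    simp only [ph, invZ_Z i hx, reduceCtorEq, if_false]
    have hx' := mem_A0.1 hx
    have hy := (Ymap_spec (uu i) x (norm_uu i) hx').1
    have hz := Zmap_est (uu i) x (norm_uu i) hx'
    obtain ⟨⟨a1, b1⟩, ⟨a2, b2⟩, ⟨a3, b3⟩⟩ :=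
      dists (uu i) x _ _ (norm_uu i) dd (1/1000000) (11/1000) hx' hy hz
    have hin := abs_real_inner_le_norm (uu i) (Ymap (uu i) x - uu i)
    rw [norm_uu, one_mul, abs_le] at hin
    simp only [dd] at a1 b1 a2 b2 a3 b3 hx'
    obtain ⟨c1, d1⟩ := inv_between (t := ‖x - Ymap (uu i) x‖) (a := 999997/1000000)
      (b := 1000003/1000000) (by norm_num) (by linarith) (by linarith)
    obtain ⟨c2, d2⟩ := inv_between (t := ‖x - Zmap (uu i) x‖) (a := 988/1000)
      (b := 1012/1000) (by norm_num) (by linarith) (by linarith)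
    obtain ⟨c3, d3⟩ := inv_between (t := ‖Ymap (uu i) x - Zmap (uu i) x‖) (a := 1988/1000)
      (b := 2012/1000) (by norm_num) (by linarith) (by linarith)
    norm_num at c1 d1 c2 d2 c3 d3
    simp only [Fb, cR, kk]
    have := norm_nonneg x
    have := norm_nonneg (Ymap (uu i) x - uu i)
    constructor <;> nlinarith

lemma ph_le {l : Lab} {p : V} (hp : p ∈ piece l) : ph l p ≤ 254/100 := by
  have := (ph_bound hp).2; split_ifs at this <;> linarith

lemma ph_ge {l : Lab} {p : V} (hp : p ∈ piece l) : -(1/50) ≤ ph l p := by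
  have := (ph_bound hp).1; split_ifs at this <;> linarith

lemma inv_ge_of_dist {l m : Lab} {p q : V} {b : ℝ} (hp : p ∈ piece l) (hq : q ∈ piece m)
    (hne : p ≠ q) (h : ‖ctr l - ctr m‖ + 22/1000 ≤ b) : 1 / b ≤ ‖p - q‖⁻¹ := by
  rw [← one_div]
  exact one_div_le_one_div_of_le (norm_pos_iff.2 (sub_ne_zero.2 hne))
    ((piece_dist hp hq).2.trans h)

lemma same_piece {l m n : Lab} {p q r : V} (hp : p ∈ piece l) (hq : q ∈ piece m)
    (hr : r ∈ piece n) (h1 : p ≠ q) (h2 : p ≠ r) (h3 : q ≠ r)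
    (h : l = m ∨ l = n ∨ m = n) : ph l p + ph m q + ph n r < cR p q r := by
  have := ph_le hp; have := ph_le hq; have := ph_le hr
  have e1 : 0 ≤ ‖p - q‖⁻¹ := by positivity
  have e2 : 0 ≤ ‖p - r‖⁻¹ := by positivity
  have e3 : 0 ≤ ‖q - r‖⁻¹ := by positivity
  simp only [cR]
  rcases h with rfl | rfl | rfl
  · have := inv_ge_of_dist (b := 22/1000) hp hq h1 (by simp)
    norm_num at this; linarith
  · have := inv_ge_of_dist (b := 22/1000) hp hr h2 (by simp)
    norm_num at this; linarith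
  · have := inv_ge_of_dist (b := 22/1000) hq hr h3 (by simp)
    norm_num at this; linarith

lemma no_a {l m n : Lab} {p q r : V} (hp : p ∈ piece l) (hq : q ∈ piece m)
    (hr : r ∈ piece n) (h1 : p ≠ q) (h2 : p ≠ r) (h3 : q ≠ r)
    (hl : l ≠ .a) (hm : m ≠ .a) (hn : n ≠ .a) : ph l p + ph m q + ph n r < cR p q r := by
  have := (ph_bound hp).2; have := (ph_bound hq).2; have := (ph_bound hr).2
  rw [if_neg hl] at *; rw [if_neg hm] at *; rw [if_neg hn] at *
  have key : ∀ {l' m' : Lab} {s t : V}, s ∈ piece l' → t ∈ piece m' → s ≠ t →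
      1 / (2022/1000) ≤ ‖s - t‖⁻¹ := by
    intro l' m' s t hs ht hst
    exact inv_ge_of_dist hs ht hst
      (by linarith [norm_sub_le (ctr l') (ctr m'), norm_ctr_le l', norm_ctr_le m'])
  simp only [cR]
  have := key hp hq h1; have := key hp hr h2; have := key hq hr h3
  norm_num at *
  linarith

lemma cross {i j : Fin 2} (hij : i ≠ j) {m n : Lab} (hm : m = .b i ∨ m = .c i)
    (hn : n = .b j ∨ n = .c j) {p q r : V} (hp : p ∈ A0) (hq : q ∈ piece m) (hr : r ∈ piece n)
    (h1 : p ≠ q) (h2 : p ≠ r) (h3 : q ≠ r) : ph .a p + ph m q + ph n r < cR p q r := by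
  have hp' : p ∈ piece .a := hp
  have hma : m ≠ .a := by rcases hm with rfl | rfl <;> simp
  have hna : n ≠ .a := by rcases hn with rfl | rfl <;> simp
  have := (ph_bound hp').2; have := (ph_bound hq).2; have := (ph_bound hr).2
  rw [if_pos rfl] at *; rw [if_neg hma] at *; rw [if_neg hna] at *
  have e1 := inv_ge_of_dist (b := 1022/1000) hp' hq h1
    (by rw [show ctr .a = 0 from rfl, zero_sub, norm_neg]; linarith [norm_ctr_le m])
  have e2 := inv_ge_of_dist (b := 1022/1000) hp' hr h2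
    (by rw [show ctr .a = 0 from rfl, zero_sub, norm_neg]; linarith [norm_ctr_le n])
  have e3 := inv_ge_of_dist (b := 14363/10000) hq hr h3
    (by linarith [(ctr_cross hij m n hm hn).2])
  simp only [cR]
  norm_num at *
  linarith

lemma branch_case (i : Fin 2) {p q r : V} (hp : p ∈ A0) (hq : q ∈ piece (.b i))
    (hr : r ∈ piece (.c i)) :
    ph .a p + ph (.b i) q + ph (.c i) r ≤ cR p q r ∧
      (ph .a p + ph (.b i) q + ph (.c i) r = cR p q r →
        q = Ymap (uu i) p ∧ r = Zmap (uu i) p) := by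
  obtain ⟨x, hx, rfl⟩ := hr
  have hp' := mem_A0.1 hp
  have hq' := piece_near hq
  simp only [ctr] at hq'
  have hd : (dd : ℝ) ≤ 1/100 := by norm_num [dd]
  have h := Fb_min (uu i) x p q (norm_uu i) (mem_A0.1 hx) (hp'.trans hd)
    (by
      obtain ⟨w, hw, rfl⟩ := hq
      linarith [(Ymap_spec (uu i) w (norm_uu i) (mem_A0.1 hw)).1])
  simp only [ph, invZ_Z i hx]
  simp only [Fb] at h ⊢
  refine ⟨by nlinarith [sq_nonneg ‖p - x‖, sq_nonneg ‖q - Ymap (uu i) x‖], fun he => ?_⟩
  have s1 : ‖p - x‖^2 = 0 := by nlinarith [sq_nonneg ‖p - x‖, sq_nonneg ‖q - Ymap (uu i) x‖]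
  have s2 : ‖q - Ymap (uu i) x‖^2 = 0 := by
    nlinarith [sq_nonneg ‖p - x‖, sq_nonneg ‖q - Ymap (uu i) x‖]
  simp only [sq_eq_zero_iff, norm_eq_zero, sub_eq_zero] at s1 s2
  subst s1
  exact ⟨s2, rfl⟩

lemma a_case {m n : Lab} {p q r : V} (hp : p ∈ A0) (hq : q ∈ piece m) (hr : r ∈ piece n)
    (h1 : p ≠ q) (h2 : p ≠ r) (h3 : q ≠ r) :
    ph .a p + ph m q + ph n r ≤ cR p q r ∧ (ph .a p + ph m q + ph n r = cR p q r →
      ∃ i, q = Ymap (uu i) p ∨ q = Zmap (uu i) p) := by
  have strict : ph .a p + ph m q + ph n r < cR p q r →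
      ph .a p + ph m q + ph n r ≤ cR p q r ∧ (ph .a p + ph m q + ph n r = cR p q r →
      ∃ i, q = Ymap (uu i) p ∨ q = Zmap (uu i) p) := fun h => ⟨h.le, fun e => absurd e h.ne⟩
  have hp' : p ∈ piece .a := hp
  cases m with
  | a => exact strict (same_piece hp' hq hr h1 h2 h3 (.inl rfl))
  | b i =>
    cases n with
    | a => exact strict (same_piece hp' hq hr h1 h2 h3 (.inr (.inl rfl)))
    | b j =>
      rcases eq_or_ne i j with rfl | hij
      · exact strict (same_piece hp' hq hr h1 h2 h3 (.inr (.inr rfl)))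
      · exact strict (cross hij (.inl rfl) (.inl rfl) hp hq hr h1 h2 h3)
    | c j =>
      rcases eq_or_ne i j with rfl | hij
      · obtain ⟨a, b⟩ := branch_case i hp hq hr
        exact ⟨a, fun e => ⟨i, .inl (b e).1⟩⟩
      · exact strict (cross hij (.inl rfl) (.inr rfl) hp hq hr h1 h2 h3)
  | c i =>
    cases n with
    | a => exact strict (same_piece hp' hq hr h1 h2 h3 (.inr (.inl rfl)))
    | c j =>
      rcases eq_or_ne i j with rfl | hij
      · exact strict (same_piece hp' hq hr h1 h2 h3 (.inr (.inr rfl)))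
      · exact strict (cross hij (.inr rfl) (.inr rfl) hp hq hr h1 h2 h3)
    | b j =>
      rcases eq_or_ne i j with rfl | hij
      · obtain ⟨a, b⟩ := branch_case i hp hr hq
        rw [cR_swap23] at a b
        exact ⟨by linarith, fun e => ⟨i, .inr (b (by linarith)).2⟩⟩
      · exact strict (cross hij (.inr rfl) (.inl rfl) hp hq hr h1 h2 h3)

lemma triple_le {l m n : Lab} {p q r : V} (hp : p ∈ piece l) (hq : q ∈ piece m)
    (hr : r ∈ piece n) (h1 : p ≠ q) (h2 : p ≠ r) (h3 : q ≠ r) :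
    ph l p + ph m q + ph n r ≤ cR p q r := by
  by_cases hl : l = .a
  · subst hl; exact (a_case hp hq hr h1 h2 h3).1
  by_cases hm : m = .a
  · subst hm
    have := (a_case hq hp hr h1.symm h3 h2).1
    rw [cR_swap12] at this; linarith
  by_cases hn : n = .a
  · subst hn
    have := (a_case hr hp hq h2.symm h3.symm h1).1
    rw [cR_swap12, cR_swap23] at this; linarith
  exact (no_a hp hq hr h1 h2 h3 hl hm hn).le

/-- The support of the marginal. -/
noncomputable def supp : Set V := ⋃ l, piece l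

/-- The potential. -/
noncomputable def phi (p : V) : ℝ := ∑ l, (piece l).indicator (ph l) p

lemma phi_eq {l : Lab} {p : V} (hp : p ∈ piece l) : phi p = ph l p := by
  rw [phi, Finset.sum_eq_single l]
  · exact indicator_of_mem hp _
  · intro m _ hm
    exact indicator_of_notMem (fun h => hm (piece_unique h hp)) _
  · simp

lemma continuousOn_Y (i : Fin 2) : ContinuousOn (Ymap (uu i)) A0 := by
  refine (LipschitzOnWith.of_dist_le_mul (K := 3000) fun x hx y hy => ?_).continuousOn
  simpa [dist_eq_norm] using Ymap_lip (uu i) x y (norm_uu i) (mem_A0.1 hx) (mem_A0.1 hy)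

lemma continuousOn_Z (i : Fin 2) : ContinuousOn (Zmap (uu i)) A0 := by
  refine (LipschitzOnWith.of_dist_le_mul (K := 100000000) fun x hx y hy => ?_).continuousOn
  simpa [dist_eq_norm] using Zmap_lip (uu i) x y (norm_uu i) (mem_A0.1 hx) (mem_A0.1 hy)

lemma lip_invY (i : Fin 2) : LipschitzOnWith 7000 (invY i) (piece (.b i)) := by
  refine LipschitzOnWith.of_dist_le_mul ?_
  rintro _ ⟨x, hx, rfl⟩ _ ⟨y, hy, rfl⟩
  rw [invY_Y i hx, invY_Y i hy, dist_eq_norm, dist_eq_norm]
  simpa using (antilip (uu i) x y (norm_uu i) (mem_A0.1 hx) (mem_A0.1 hy)).1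

lemma lip_invZ (i : Fin 2) : LipschitzOnWith 1 (invZ i) (piece (.c i)) := by
  refine LipschitzOnWith.of_dist_le_mul ?_
  rintro _ ⟨x, hx, rfl⟩ _ ⟨y, hy, rfl⟩
  rw [invZ_Z i hx, invZ_Z i hy, dist_eq_norm, dist_eq_norm]
  simpa using (antilip (uu i) x y (norm_uu i) (mem_A0.1 hx) (mem_A0.1 hy)).2

lemma isCompact_piece (l : Lab) : IsCompact (piece l) := by
  cases l with
  | a => exact isCompact_closedBall _ _
  | b i => exact (isCompact_closedBall _ _).image_of_continuousOn (continuousOn_Y i)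
  | c i => exact (isCompact_closedBall _ _).image_of_continuousOn (continuousOn_Z i)

lemma continuousOn_ph (l : Lab) : ContinuousOn (ph l) (piece l) := by
  cases l with
  | a => simp only [ph]; fun_prop
  | b i => simp only [ph]; fun_prop
  | c i =>
    have h1 := (lip_invZ i).continuousOn
    have hm : MapsTo (invZ i) (piece (.c i)) A0 := by
      rintro _ ⟨x, hx, rfl⟩; rwa [invZ_Z i hx]
    have h2 : ContinuousOn (fun z => Ymap (uu i) (invZ i z)) (piece (.c i)) :=
      (continuousOn_Y i).comp h1 hm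
    have ne : ∀ z ∈ piece (.c i), invZ i z - Ymap (uu i) (invZ i z) ≠ 0 ∧ invZ i z - z ≠ 0 ∧
        Ymap (uu i) (invZ i z) - z ≠ 0 := by
      intro z hz
      have ha : invZ i z ∈ piece .a := hm hz
      have hb : Ymap (uu i) (invZ i z) ∈ piece (.b i) := mem_image_of_mem _ (hm hz)
      refine ⟨?_, ?_, ?_⟩ <;> rw [sub_ne_zero] <;> intro e
      · rw [e] at ha; exact nomatch piece_unique ha hb
      · rw [e] at ha; exact nomatch piece_unique ha hz
      · rw [e] at hb; exact nomatch piece_unique hb hz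
    simp only [ph, Fb, cR]
    refine ContinuousOn.add (ContinuousOn.add (ContinuousOn.add (ContinuousOn.sub
      (ContinuousOn.add (ContinuousOn.add ?_ ?_) ?_) continuousOn_const) ?_) ?_) ?_
    · exact ((h1.sub h2).norm).inv₀ fun z hz => norm_ne_zero_iff.2 (ne z hz).1
    · exact ((h1.sub continuousOn_id).norm).inv₀ fun z hz => norm_ne_zero_iff.2 (ne z hz).2.1
    · exact ((h2.sub continuousOn_id).norm).inv₀ fun z hz => norm_ne_zero_iff.2 (ne z hz).2.2
    · fun_prop
    · fun_prop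
    · fun_prop

lemma measurable_phi : Measurable phi := by
  refine Finset.measurable_fun_sum _ fun l _ => ?_
  classical
  rw [← piecewise_eq_indicator]
  exact (continuousOn_ph l).measurable_piecewise continuousOn_const
    (isCompact_piece l).measurableSet

end Vale.Agent.P121
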