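import Mathlib

namespace Vale.Agent.P121

open MeasureTheory
open scoped ENNReal

/-- The three-particle Coulomb cost; it is `⊤` when two of the points coincide. -/
noncomputable def coulomb (x y z : EuclideanSpace ℝ (Fin 3)) : ℝ≥0∞ :=
  (edist x y)⁻¹ + (edist x z)⁻¹ + (edist y z)⁻¹

/-- The Kantorovich value: infimum of the cost over measures with all three marginals `μ`. -/
noncomputable def kantorovich (μ : Measure (EuclideanSpace ℝ (Fin 3))) : ℝ≥0∞ :=
  ⨅ (π : Measure (EuclideanSpace ℝ (Fin 3) × EuclideanSpace ℝ (Fin 3) × EuclideanSpace ℝ (Fin 3)))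
    (_ : π.map (fun p => p.1) = μ) (_ : π.map (fun p => p.2.1) = μ)
    (_ : π.map (fun p => p.2.2) = μ),
    ∫⁻ p, coulomb p.1 p.2.1 p.2.2 ∂π

end Vale.Agent.P121
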