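import Mathlib

namespace Vale.Agent.P121

open scoped RealInnerProductSpace

abbrev V := EuclideanSpace ℝ (Fin 3)

/-- Gradient of the Coulomb kernel `w ↦ ‖w‖⁻¹`. -/
noncomputable def gr (w : V) : V := -((1 / ‖w‖ ^ 3) • w)

/-- Inverse of `gr`. -/
noncomputable def ginv (v : V) : V := -((1 / (‖v‖ * Real.sqrt ‖v‖)) • v)

lemma gr_neg (w : V) : gr (-w) = -gr w := by
  simp [gr, smul_neg]

lemma gr_sub_swap (x y : V) : gr (y - x) = -gr (x - y) := by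
  rw [← gr_neg]; congr 1; abel

lemma norm_smul_sub_smul_le (a b : ℝ) (ha : 0 ≤ a) (w v : V) :
    ‖a • w - b • v‖ ≤ a * ‖w - v‖ + |a - b| * ‖v‖ := by
  have h : a • w - b • v = a • (w - v) + (a - b) • v := by
    rw [smul_sub, sub_smul]; abel
  rw [h]
  refine (norm_add_le _ _).trans ?_
  rw [norm_smul, norm_smul, Real.norm_eq_abs, Real.norm_eq_abs, abs_of_nonneg ha]

/-- Lower quadratic bound for the Coulomb kernel. -/
lemma inv_norm_ge (w v : V) (hw : 1 / 2 ≤ ‖w‖) (hv : 1 / 2 ≤ ‖v‖) :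
    ‖w‖⁻¹ + ⟪gr w, v - w⟫ - 4 * ‖v - w‖ ^ 2 ≤ ‖v‖⁻¹ := by
  have hi : ⟪w, v - w⟫ = (‖v‖ ^ 2 - ‖w‖ ^ 2 - ‖v - w‖ ^ 2) / 2 := by
    have := norm_add_sq_real w (v - w)
    rw [add_sub_cancel] at this
    linarith
  have hg : ⟪gr w, v - w⟫ = -((1 / ‖w‖ ^ 3) * ⟪w, v - w⟫) := by
    simp [gr, inner_neg_left, real_inner_smul_left]
  rw [hg, hi]
  set p := ‖v‖
  set q := ‖w‖
  set h := ‖v - w‖
  have hp : 0 < p := by linarith
  have hq : 0 < q := by linarith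
  have e : p⁻¹ - q⁻¹ + 1 / q ^ 3 * ((p ^ 2 - q ^ 2 - h ^ 2) / 2)
      = (p - q) ^ 2 * (p + 2 * q) / (2 * p * q ^ 3) - h ^ 2 / (2 * q ^ 3) := by
    field_simp
    ring
  have h1 : 0 ≤ (p - q) ^ 2 * (p + 2 * q) / (2 * p * q ^ 3) := by positivity
  have h2 : h ^ 2 / (2 * q ^ 3) ≤ 4 * h ^ 2 := by
    rw [div_le_iff₀ (by positivity)]
    have : (1:ℝ) / 8 ≤ q ^ 3 := by
      calc (1:ℝ)/8 = (1/2)^3 := by norm_num
        _ ≤ q ^ 3 := by gcongr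
    nlinarith [sq_nonneg h]
  linarith

lemma gr_lip (w v : V) (hw : 1 / 2 ≤ ‖w‖) (hv : 1 / 2 ≤ ‖v‖) :
    ‖gr w - gr v‖ ≤ 32 * ‖w - v‖ := by
  set p := ‖v‖ with hpdef
  set q := ‖w‖ with hqdef
  have hp : 0 < p := by linarith
  have hq : 0 < q := by linarith
  have hd : |q - p| ≤ ‖w - v‖ := abs_norm_sub_norm_le w v
  have e : gr w - gr v = -((1 / q ^ 3) • w - (1 / p ^ 3) • v) := by
    simp only [gr, ← hpdef, ← hqdef]; abel
  rw [e, norm_neg]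
  refine (norm_smul_sub_smul_le _ _ (by positivity) w v).trans ?_
  rw [← hpdef]
  have hip : 1 / p ≤ 2 := by rw [div_le_iff₀ hp]; linarith
  have hiq : 1 / q ≤ 2 := by rw [div_le_iff₀ hq]; linarith
  have e2 : (1 / q ^ 3 - 1 / p ^ 3) * p
      = (p - q) * ((1/q)^3 + (1/q)^2 * (1/p) + (1/q) * (1/p)^2) := by
    field_simp; ring
  have h3 : |1 / q ^ 3 - 1 / p ^ 3| * p ≤ |q - p| * 24 := by
    have : |1 / q ^ 3 - 1 / p ^ 3| * p = |(1 / q ^ 3 - 1 / p ^ 3) * p| := by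
      rw [abs_mul, abs_of_pos hp]
    rw [this, e2, abs_mul, abs_sub_comm q p]
    refine mul_le_mul_of_nonneg_left ?_ (abs_nonneg _)
    rw [abs_of_nonneg (by positivity)]
    calc (1/q)^3 + (1/q)^2 * (1/p) + (1/q) * (1/p)^2
        ≤ 2^3 + 2^2 * 2 + 2 * 2^2 := by gcongr
      _ = 24 := by norm_num
  have h4 : 1 / q ^ 3 ≤ 8 := by
    calc 1 / q ^ 3 = (1/q)^3 := by ring
      _ ≤ 2^3 := by gcongr
      _ = 8 := by norm_num
  nlinarith [norm_nonneg (w - v)]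

lemma ginv_lip (v w : V) (hv : 1 / 9 ≤ ‖v‖) (hw : 1 / 9 ≤ ‖w‖) :
    ‖ginv v - ginv w‖ ≤ 81 * ‖v - w‖ := by
  set p := Real.sqrt ‖v‖ with hpdef
  set q := Real.sqrt ‖w‖ with hqdef
  have hp2 : p ^ 2 = ‖v‖ := Real.sq_sqrt (norm_nonneg _)
  have hq2 : q ^ 2 = ‖w‖ := Real.sq_sqrt (norm_nonneg _)
  have hp3 : 1 / 3 ≤ p := Real.le_sqrt_of_sq_le (by linarith)
  have hq3 : 1 / 3 ≤ q := Real.le_sqrt_of_sq_le (by linarith)
  have hp : 0 < p := by linarith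
  have hq : 0 < q := by linarith
  have hd : |p ^ 2 - q ^ 2| ≤ ‖v - w‖ := by rw [hp2, hq2]; exact abs_norm_sub_norm_le v w
  have e : ginv v - ginv w = -((1 / p ^ 3) • v - (1 / q ^ 3) • w) := by
    simp only [ginv, ← hpdef, ← hqdef]
    rw [← hp2, ← hq2]
    ring_nf
    abel
  rw [e, norm_neg]
  refine (norm_smul_sub_smul_le _ _ (by positivity) v w).trans ?_
  rw [← hq2]
  have hip : 1 / p ≤ 3 := by rw [div_le_iff₀ hp]; linarith
  have hiq : 1 / q ≤ 3 := by rw [div_le_iff₀ hq]; linarith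
  have h3 : |1 / p ^ 3 - 1 / q ^ 3| * q ^ 2 ≤ |p ^ 2 - q ^ 2| * 54 := by
    have e2 : (1 / p ^ 3 - 1 / q ^ 3) * q ^ 2 * (p + q)
        = (q ^ 2 - p ^ 2) * ((q^2 + p*q + p^2) / (p^3 * q)) := by
      field_simp; ring
    have hle : (q^2 + p*q + p^2) / (p^3 * q) ≤ 54 * (p + q) := by
      have h5 : 1/p^3 + 1/(p^2*q) ≤ 54 := by
        calc 1/p^3 + 1/(p^2*q) = (1/p)^3 + (1/p)^2*(1/q) := by field_simp
          _ ≤ 3^3 + 3^2*3 := by gcongr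
          _ = 54 := by norm_num
      calc (q^2 + p*q + p^2) / (p^3 * q) ≤ ((p+q) * (p + q)) / (p^3 * q) := by
            gcongr; nlinarith [mul_pos hp hq]
        _ = (p + q) * (1/p^3 + 1/(p^2*q)) := by field_simp; ring
        _ ≤ (p + q) * 54 := by gcongr
        _ = 54 * (p + q) := by ring
    have e3 := congrArg abs e2
    simp only [abs_mul] at e3
    rw [abs_of_pos (pow_pos hq 2), abs_of_pos (add_pos hp hq),
      abs_of_nonneg (show (0:ℝ) ≤ (q^2 + p*q + p^2) / (p^3 * q) by positivity),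
      abs_sub_comm (q^2) (p^2)] at e3
    have h6 := mul_le_mul_of_nonneg_left hle (abs_nonneg (p ^ 2 - q ^ 2))
    refine le_of_mul_le_mul_right ?_ (add_pos hp hq)
    calc |1 / p ^ 3 - 1 / q ^ 3| * q ^ 2 * (p + q)
        ≤ |p ^ 2 - q ^ 2| * (54 * (p + q)) := by rw [e3]; exact h6
      _ = _ := by ring
  have h4 : 1 / p ^ 3 ≤ 27 := by
    calc 1 / p ^ 3 = (1/p)^3 := by ring
      _ ≤ 3^3 := by gcongr
      _ = 27 := by norm_num
  nlinarith [norm_nonneg (v - w)]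

lemma gr_ginv (v : V) (hv : v ≠ 0) : gr (ginv v) = v := by
  have hn : 0 < ‖v‖ := norm_pos_iff.2 hv
  have hs : 0 < Real.sqrt ‖v‖ := Real.sqrt_pos.2 hn
  have hs2 : Real.sqrt ‖v‖ ^ 2 = ‖v‖ := Real.sq_sqrt hn.le
  have hnorm : ‖ginv v‖ = 1 / Real.sqrt ‖v‖ := by
    rw [ginv, norm_neg, norm_smul, Real.norm_eq_abs, abs_of_pos (by positivity)]
    field_simp
  rw [gr, hnorm, ginv, smul_neg, neg_neg, smul_smul]
  have : 1 / (1 / Real.sqrt ‖v‖) ^ 3 * (1 / (‖v‖ * Real.sqrt ‖v‖)) = 1 := by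
    field_simp
    linarith
  rw [this, one_smul]

lemma ginv_gr (w : V) (hw : w ≠ 0) : ginv (gr w) = w := by
  have hn : 0 < ‖w‖ := norm_pos_iff.2 hw
  have hnorm : ‖gr w‖ = 1 / ‖w‖ ^ 2 := by
    rw [gr, norm_neg, norm_smul, Real.norm_eq_abs, abs_of_pos (by positivity)]
    field_simp
  have hs : Real.sqrt (1 / ‖w‖ ^ 2) = 1 / ‖w‖ := by
    rw [← one_div_pow, Real.sqrt_sq (by positivity)]
  rw [ginv, hnorm, hs, gr, smul_neg, neg_neg, smul_smul]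
  have : 1 / (1 / ‖w‖ ^ 2 * (1 / ‖w‖)) * (1 / ‖w‖ ^ 3) = 1 := by
    field_simp
  rw [this, one_smul]

lemma norm_gr (w : V) : ‖gr w‖ = 1 / ‖w‖ ^ 2 := by
  rcases eq_or_ne w 0 with rfl | hw
  · simp [gr]
  · have hn : 0 < ‖w‖ := norm_pos_iff.2 hw
    rw [gr, norm_neg, norm_smul, Real.norm_eq_abs, abs_of_pos (by positivity)]
    field_simp

lemma gr_antilip (w v : V) (hw : w ≠ 0) (hv : v ≠ 0) (hw3 : ‖w‖ ≤ 3) (hv3 : ‖v‖ ≤ 3) :
    ‖w - v‖ ≤ 81 * ‖gr w - gr v‖ := by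
  have key : ∀ z : V, z ≠ 0 → ‖z‖ ≤ 3 → 1 / 9 ≤ ‖gr z‖ := by
    intro z hz hz3
    have hn : 0 < ‖z‖ := norm_pos_iff.2 hz
    rw [norm_gr]
    rw [div_le_div_iff₀ (by norm_num) (by positivity)]
    nlinarith
  have := ginv_lip (gr w) (gr v) (key w hw hw3) (key v hv hv3)
  rwa [ginv_gr w hw, ginv_gr v hv] at this

lemma ginv_neg_unit (u : V) (hu : ‖u‖ = 1) : ginv (-u) = u := by
  simp [ginv, hu]

lemma gr_unit (u : V) (hu : ‖u‖ = 1) : gr u = -u := by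
  simp [gr, hu]

lemma gr_two_unit (u : V) (hu : ‖u‖ = 1) : gr ((2:ℝ) • u) = -((1/4 : ℝ) • u) := by
  rw [gr, norm_smul, hu, smul_smul]
  norm_num

end Vale.Agent.P121
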