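import Vale.Agent.P121.Cert
import Vale.Agent.P121.Defs

namespace Vale.Agent.P121

open MeasureTheory Measure Set
open scoped ENNReal

/-- The parametrization of each cluster by the central one. -/
noncomputable def Fl : Lab → V → V := by
  classical
  exact fun l => match l with
  | .a => id
  | .b i => A0.piecewise (Ymap (uu i)) (fun _ => 0)
  | .c i => A0.piecewise (Zmap (uu i)) (fun _ => 0)

lemma Fl_a : Fl .a = id := rfl

lemma Fl_b (i : Fin 2) {x : V} (hx : x ∈ A0) : Fl (.b i) x = Ymap (uu i) x := by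
  classical
  simp [Fl, hx]

lemma Fl_c (i : Fin 2) {x : V} (hx : x ∈ A0) : Fl (.c i) x = Zmap (uu i) x := by
  classical
  simp [Fl, hx]

lemma measurableSet_A0 : MeasurableSet A0 := (isCompact_piece .a).measurableSet

lemma measurable_Fl (l : Lab) : Measurable (Fl l) := by
  classical
  cases l with
  | a => exact measurable_id
  | b i => exact (continuousOn_Y i).measurable_piecewise continuousOn_const measurableSet_A0
  | c i => exact (continuousOn_Z i).measurable_piecewise continuousOn_const measurableSet_A0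

lemma Fl_mem {l : Lab} {x : V} (hx : x ∈ A0) : Fl l x ∈ piece l := by
  cases l with
  | a => exact hx
  | b i => rw [Fl_b i hx]; exact mem_image_of_mem _ hx
  | c i => rw [Fl_c i hx]; exact mem_image_of_mem _ hx

lemma continuousOn_Fl (l : Lab) : ContinuousOn (Fl l) A0 := by
  cases l with
  | a => exact continuousOn_id
  | b i => exact (continuousOn_Y i).congr fun x hx => Fl_b i hx
  | c i => exact (continuousOn_Z i).congr fun x hx => Fl_c i hx

lemma injOn_Fl (l : Lab) : InjOn (Fl l) A0 := by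
  cases l with
  | a => exact injOn_id _
  | b i => exact (Y_injOn i).congr fun x hx => (Fl_b i hx).symm
  | c i => exact (Z_injOn i).congr fun x hx => (Fl_c i hx).symm

/-- Normalized Lebesgue measure on the central cluster. -/
noncomputable def nu : Measure V := (volume A0)⁻¹ • volume.restrict A0

lemma vol_A0_pos : 0 < volume A0 :=
  Metric.measure_closedBall_pos volume 0 (by norm_num [dd])

lemma vol_A0_lt : volume A0 < ⊤ := (isCompact_piece .a).measure_lt_top

instance : IsProbabilityMeasure nu := by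
  constructor
  rw [nu, Measure.smul_apply, Measure.restrict_apply_univ, smul_eq_mul,
    ENNReal.inv_mul_cancel vol_A0_pos.ne' vol_A0_lt.ne]

lemma nu_compl : nu A0ᶜ = 0 := by
  rw [nu, Measure.smul_apply, Measure.restrict_apply measurableSet_A0.compl]
  simp

lemma ae_A0 : ∀ᵐ x ∂nu, x ∈ A0 := by
  rw [ae_iff]
  exact nu_compl

/-- The weights of the clusters. -/
noncomputable def wt : Lab → ℝ≥0∞
  | .a => 3⁻¹
  | .b _ => 6⁻¹
  | .c _ => 6⁻¹

lemma lab_sum {M : Type*} [AddCommMonoid M] (f : Lab → M) :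
    ∑ l, f l = f .a + (f (.b 0) + (f (.b 1) + (f (.c 0) + f (.c 1)))) := by
  have : (Finset.univ : Finset Lab) = {Lab.a, Lab.b 0, Lab.b 1, Lab.c 0, Lab.c 1} := rfl
  rw [this]
  simp

lemma three_eq : (3 : ℝ≥0∞)⁻¹ = 6⁻¹ + 6⁻¹ := by
  rw [← two_mul, show (6 : ℝ≥0∞) = 2 * 3 by norm_num,
    ENNReal.mul_inv (by simp) (by simp), ← mul_assoc, ENNReal.mul_inv_cancel (by simp) (by simp),
    one_mul]

/-- The marginal. -/
noncomputable def mu : Measure V := ∑ l, wt l • nu.map (Fl l)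

lemma mu_apply {s : Set V} (hs : MeasurableSet s) : mu s = ∑ l, wt l * nu (Fl l ⁻¹' s) := by
  simp [mu, Measure.map_apply (measurable_Fl _) hs]

instance : IsProbabilityMeasure mu := by
  constructor
  rw [mu_apply MeasurableSet.univ]
  simp only [preimage_univ, measure_univ, mul_one, lab_sum, wt]
  rw [show (6:ℝ≥0∞)⁻¹ + (6⁻¹ + (6⁻¹ + 6⁻¹)) = 3⁻¹ + 3⁻¹ by rw [three_eq]; ring]
  rw [show (3 : ℝ≥0∞)⁻¹ + (3⁻¹ + 3⁻¹) = 3 * 3⁻¹ by ring,
    ENNReal.mul_inv_cancel (by simp) (by simp)]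

lemma mu_of_subset_piece {l : Lab} {s : Set V} (hs : MeasurableSet s) (hsub : s ⊆ piece l) :
    mu s = wt l * nu (Fl l ⁻¹' s) := by
  rw [mu_apply hs, Finset.sum_eq_single l]
  · intro m _ hm
    have : nu (Fl m ⁻¹' s) = 0 := by
      refine measure_mono_null (fun x hx => ?_) nu_compl
      exact fun hA => hm (piece_unique (Fl_mem hA) (hsub hx))
    rw [this, mul_zero]
  · simp

lemma measurableSet_supp : MeasurableSet supp :=
  MeasurableSet.iUnion fun l => (isCompact_piece l).measurableSet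

lemma ae_supp : ∀ᵐ x ∂mu, x ∈ supp := by
  rw [ae_iff, show {x | x ∉ supp} = suppᶜ from rfl, mu_apply measurableSet_supp.compl]
  refine Finset.sum_eq_zero fun l _ => ?_
  have : nu (Fl l ⁻¹' suppᶜ) = 0 := by
    refine measure_mono_null (fun x hx => ?_) nu_compl
    exact fun hA => hx (mem_iUnion.2 ⟨l, Fl_mem hA⟩)
  rw [this, mul_zero]

/-- The shifted potential. -/
noncomputable def gg (p : V) : ℝ≥0∞ := ENNReal.ofReal (phi p + 1)

lemma measurable_gg : Measurable gg := (measurable_phi.add_const 1).ennreal_ofReal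

lemma phi_nonneg {p : V} (hp : p ∈ supp) : 0 ≤ phi p + 1 := by
  obtain ⟨l, hl⟩ := mem_iUnion.1 hp
  rw [phi_eq hl]; linarith [ph_ge hl]

lemma lintegral_gg_ne_top : ∫⁻ x, gg x ∂mu ≠ ⊤ := by
  refine ne_top_of_le_ne_top (b := ∫⁻ _, ENNReal.ofReal 4 ∂mu) (by simp) (lintegral_mono_ae ?_)
  filter_upwards [ae_supp] with x hx
  obtain ⟨l, hl⟩ := mem_iUnion.1 hx
  exact ENNReal.ofReal_le_ofReal (by rw [phi_eq hl]; linarith [ph_le hl])

lemma coulomb_eq_ofReal {x y z : V} (h1 : x ≠ y) (h2 : x ≠ z) (h3 : y ≠ z) :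
    coulomb x y z = ENNReal.ofReal (cR x y z) := by
  have h : ∀ {a b : V}, a ≠ b → (edist a b)⁻¹ = ENNReal.ofReal ‖a - b‖⁻¹ := by
    intro a b hab
    rw [edist_dist, dist_eq_norm, ENNReal.ofReal_inv_of_pos (norm_pos_iff.2 (sub_ne_zero.2 hab))]
  rw [coulomb, h h1, h h2, h h3, cR, ← ENNReal.ofReal_add (by positivity) (by positivity),
    ← ENNReal.ofReal_add (by positivity) (by positivity)]

lemma coulomb_top {x y z : V} (h : ¬ (x ≠ y ∧ x ≠ z ∧ y ≠ z)) : coulomb x y z = ⊤ := by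
  by_cases h1 : x = y
  · simp [coulomb, h1]
  by_cases h2 : x = z
  · simp [coulomb, h2]
  by_cases h3 : y = z
  · simp [coulomb, h3]
  exact absurd ⟨h1, h2, h3⟩ h

lemma add_three_real {x y z : V} (h1 : x ≠ y) (h2 : x ≠ z) (h3 : y ≠ z) :
    coulomb x y z + 3 = ENNReal.ofReal (cR x y z + 3) := by
  rw [coulomb_eq_ofReal h1 h2 h3, ENNReal.ofReal_add (by unfold cR; positivity) (by norm_num)]
  simp

lemma gg_sum {p q r : V} (hp : p ∈ supp) (hq : q ∈ supp) (hr : r ∈ supp) :
    gg p + gg q + gg r = ENNReal.ofReal (phi p + phi q + phi r + 3) := by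
  have hp := phi_nonneg hp; have hq := phi_nonneg hq; have hr := phi_nonneg hr
  rw [gg, gg, gg, ← ENNReal.ofReal_add hp hq, ← ENNReal.ofReal_add (by linarith) hr]
  congr 1; ring

lemma cost_le {p q r : V} (hp : p ∈ supp) (hq : q ∈ supp) (hr : r ∈ supp) :
    gg p + gg q + gg r ≤ coulomb p q r + 3 := by
  by_cases h : p ≠ q ∧ p ≠ r ∧ q ≠ r
  · obtain ⟨l, hl⟩ := mem_iUnion.1 hp
    obtain ⟨m, hm⟩ := mem_iUnion.1 hq
    obtain ⟨n, hn⟩ := mem_iUnion.1 hr
    rw [gg_sum hp hq hr, add_three_real h.1 h.2.1 h.2.2, phi_eq hl, phi_eq hm, phi_eq hn]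
    exact ENNReal.ofReal_le_ofReal (by linarith [triple_le hl hm hn h.1 h.2.1 h.2.2])
  · simp [coulomb_top h]

lemma cost_eq {p q r : V} (hp : p ∈ A0) (hq : q ∈ supp) (hr : r ∈ supp)
    (he : gg p + gg q + gg r = coulomb p q r + 3) :
    ∃ l, l ≠ Lab.a ∧ q = Fl l p := by
  have hp' : p ∈ supp := mem_iUnion.2 ⟨.a, hp⟩
  by_cases h : p ≠ q ∧ p ≠ r ∧ q ≠ r
  · obtain ⟨m, hm⟩ := mem_iUnion.1 hq
    obtain ⟨n, hn⟩ := mem_iUnion.1 hr
    have hle := (a_case hp hm hn h.1 h.2.1 h.2.2)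
    rw [gg_sum hp' hq hr, add_three_real h.1 h.2.1 h.2.2,
      ENNReal.ofReal_eq_ofReal_iff (by linarith [phi_nonneg hp', phi_nonneg hq, phi_nonneg hr])
        (by unfold cR; positivity),
      phi_eq (l := .a) hp, phi_eq hm, phi_eq hn] at he
    obtain ⟨i, hi | hi⟩ := hle.2 (by linarith)
    · exact ⟨.b i, by simp, by rw [Fl_b i hp, hi]⟩
    · exact ⟨.c i, by simp, by rw [Fl_c i hp, hi]⟩
  · rw [gg_sum hp' hq hr, coulomb_top h] at he
    simp at he

lemma branch_eq (i : Fin 2) {x : V} (hx : x ∈ A0) :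
    phi x + phi (Fl (.b i) x) + phi (Fl (.c i) x) = cR x (Fl (.b i) x) (Fl (.c i) x) ∧
    x ≠ Fl (.b i) x ∧ x ≠ Fl (.c i) x ∧ Fl (.b i) x ≠ Fl (.c i) x := by
  have ha : x ∈ piece .a := hx
  have hb : Fl (.b i) x ∈ piece (.b i) := Fl_mem hx
  have hc : Fl (.c i) x ∈ piece (.c i) := Fl_mem hx
  refine ⟨?_, ?_, ?_, ?_⟩
  · rw [phi_eq ha, phi_eq hb, phi_eq hc, Fl_b i hx, Fl_c i hx]
    simp only [ph, invZ_Z i hx, Fb]
    ring
  · intro e; rw [e] at ha; exact nomatch piece_unique ha hb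
  · intro e; rw [e] at ha; exact nomatch piece_unique ha hc
  · intro e; rw [e] at hb; exact nomatch piece_unique hb hc

lemma coulomb_rot (x y z : V) : coulomb y z x = coulomb x y z := by
  simp only [coulomb, edist_comm y x, edist_comm z x]; ring

abbrev W := V × V × V

/-- The three cyclic arrangements of branch `i`. -/
noncomputable def br1 (i : Fin 2) (x : V) : W := (x, Fl (.b i) x, Fl (.c i) x)
noncomputable def br2 (i : Fin 2) (x : V) : W := (Fl (.b i) x, Fl (.c i) x, x)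
noncomputable def br3 (i : Fin 2) (x : V) : W := (Fl (.c i) x, x, Fl (.b i) x)

lemma measurable_br1 (i : Fin 2) : Measurable (br1 i) :=
  measurable_id.prodMk ((measurable_Fl _).prodMk (measurable_Fl _))
lemma measurable_br2 (i : Fin 2) : Measurable (br2 i) :=
  (measurable_Fl _).prodMk ((measurable_Fl _).prodMk measurable_id)
lemma measurable_br3 (i : Fin 2) : Measurable (br3 i) :=
  (measurable_Fl _).prodMk (measurable_id.prodMk (measurable_Fl _))

/-- The optimal symmetric plan. -/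
noncomputable def pi0 : Measure W :=
  ∑ i : Fin 2, (6⁻¹ : ℝ≥0∞) • (nu.map (br1 i) + nu.map (br2 i) + nu.map (br3 i))

lemma pi0_marg {f : W → V} (hf : Measurable f)
    (h : f = (fun p => p.1) ∨ f = (fun p => p.2.1) ∨ f = (fun p => p.2.2)) :
    pi0.map f = mu := by
  ext s hs
  rw [Measure.map_apply hf hs, mu_apply hs, lab_sum]
  simp only [pi0, Fin.sum_univ_two, Measure.add_apply, Measure.smul_apply, smul_eq_mul,
    Measure.map_apply (measurable_br1 _) (hf hs), Measure.map_apply (measurable_br2 _) (hf hs),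
    Measure.map_apply (measurable_br3 _) (hf hs), ← preimage_comp, wt, three_eq]
  rcases h with rfl | rfl | rfl <;>
    simp only [Function.comp_def, br1, br2, br3, Fl_a, preimage_id_eq, id_eq, preimage_id'] <;>
    ring

lemma ae_pi0 : ∀ᵐ p ∂pi0, coulomb p.1 p.2.1 p.2.2 + 3 = gg p.1 + gg p.2.1 + gg p.2.2 := by
  have hm : MeasurableSet
      {p : W | coulomb p.1 p.2.1 p.2.2 + 3 = gg p.1 + gg p.2.1 + gg p.2.2} := by
    have := measurable_gg
    refine measurableSet_eq_fun ?_ ?_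
    · unfold coulomb; fun_prop
    · fun_prop
  have key : ∀ i x, x ∈ A0 → coulomb x (Fl (.b i) x) (Fl (.c i) x) + 3
      = gg x + gg (Fl (.b i) x) + gg (Fl (.c i) x) := by
    intro i x hx
    obtain ⟨e, h1, h2, h3⟩ := branch_eq i hx
    rw [gg_sum (mem_iUnion.2 ⟨.a, hx⟩) (mem_iUnion.2 ⟨_, Fl_mem hx⟩)
      (mem_iUnion.2 ⟨_, Fl_mem hx⟩), add_three_real h1 h2 h3, e]
  rw [ae_iff, pi0, Measure.finsetSum_apply]
  refine Finset.sum_eq_zero fun i _ => ?_
  simp only [Measure.smul_apply, Measure.add_apply, smul_eq_mul]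
  have z : ∀ (F : V → W), Measurable F → (∀ x ∈ A0, coulomb (F x).1 (F x).2.1 (F x).2.2 + 3
      = gg (F x).1 + gg (F x).2.1 + gg (F x).2.2) →
      nu.map F {p : W | ¬ coulomb p.1 p.2.1 p.2.2 + 3 = gg p.1 + gg p.2.1 + gg p.2.2} = 0 := by
    intro F hF hx
    rw [show {p : W | ¬ coulomb p.1 p.2.1 p.2.2 + 3 = gg p.1 + gg p.2.1 + gg p.2.2}
      = {p : W | coulomb p.1 p.2.1 p.2.2 + 3 = gg p.1 + gg p.2.1 + gg p.2.2}ᶜ from rfl,
      Measure.map_apply hF hm.compl]
    exact measure_mono_null (fun x h hA => h (hx x hA)) nu_compl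
  rw [z _ (measurable_br1 i) fun x hx => key i x hx,
    z _ (measurable_br2 i) fun x hx => by
      simp only [br2]; rw [coulomb_rot, key i x hx]; ring,
    z _ (measurable_br3 i) fun x hx => by
      simp only [br3]; rw [coulomb_rot, coulomb_rot, key i x hx]; ring]
  simp

lemma lint_plus_three {α : Type*} [MeasurableSpace α] (π : Measure α) [IsProbabilityMeasure π]
    (f : α → ℝ≥0∞) : ∫⁻ p, (f p + 3) ∂π = ∫⁻ p, f p ∂π + 3 := by
  rw [lintegral_add_right _ measurable_const, lintegral_const, measure_univ, mul_one]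

lemma lint_gg {α : Type*} [MeasurableSpace α] (π : Measure α) {f1 f2 f3 : α → V}
    (m1 : Measurable f1) (m2 : Measurable f2) (m3 : Measurable f3)
    (h1 : π.map f1 = mu) (h2 : π.map f2 = mu) (h3 : π.map f3 = mu) :
    ∫⁻ p, (gg (f1 p) + gg (f2 p) + gg (f3 p)) ∂π = 3 * ∫⁻ x, gg x ∂mu := by
  have e3 : Measurable fun p => gg (f3 p) := measurable_gg.comp m3
  have e2 : Measurable fun p => gg (f2 p) := measurable_gg.comp m2
  rw [lintegral_add_right _ e3, lintegral_add_right _ e2,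
    ← lintegral_map measurable_gg m1, ← lintegral_map measurable_gg m2,
    ← lintegral_map measurable_gg m3, h1, h2, h3]
  ring

lemma isProb_of_marg {α : Type*} [MeasurableSpace α] {π : Measure α} {f : α → V}
    (hf : Measurable f) (h : π.map f = mu) : IsProbabilityMeasure π := by
  constructor
  have := congrArg (fun m : Measure V => m univ) h
  simpa [Measure.map_apply hf MeasurableSet.univ] using this

lemma pi0_cost : ∫⁻ p, coulomb p.1 p.2.1 p.2.2 ∂pi0 + 3 = 3 * ∫⁻ x, gg x ∂mu := by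
  have : IsProbabilityMeasure pi0 :=
    isProb_of_marg measurable_fst (pi0_marg measurable_fst (.inl rfl))
  rw [← lint_plus_three, lintegral_congr_ae ae_pi0]
  exact lint_gg pi0 measurable_fst (by fun_prop) (by fun_prop)
    (pi0_marg measurable_fst (.inl rfl)) (pi0_marg (by fun_prop) (.inr (.inl rfl)))
    (pi0_marg (by fun_prop) (.inr (.inr rfl)))

lemma kant_eq : kantorovich mu + 3 = 3 * ∫⁻ x, gg x ∂mu := by
  have h : kantorovich mu = ∫⁻ p, coulomb p.1 p.2.1 p.2.2 ∂pi0 := by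
    apply le_antisymm
    · exact iInf_le_of_le pi0 (iInf_le_of_le (pi0_marg measurable_fst (.inl rfl))
        (iInf_le_of_le (pi0_marg (by fun_prop) (.inr (.inl rfl)))
          (iInf_le_of_le (pi0_marg (by fun_prop) (.inr (.inr rfl))) le_rfl)))
    · refine le_iInf fun π => le_iInf fun h1 => le_iInf fun h2 => le_iInf fun h3 => ?_
      have : IsProbabilityMeasure π := isProb_of_marg measurable_fst h1
      rw [← ENNReal.add_le_add_iff_right (show (3 : ℝ≥0∞) ≠ ⊤ by simp), pi0_cost,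
        ← lint_plus_three, ← lint_gg π measurable_fst (by fun_prop) (by fun_prop) h1 h2 h3]
      refine lintegral_mono_ae ?_
      have a1 : ∀ᵐ p ∂π, p.1 ∈ supp :=
        ae_of_ae_map (f := fun p : W => p.1) (by fun_prop) (h1 ▸ ae_supp)
      have a2 : ∀ᵐ p ∂π, p.2.1 ∈ supp :=
        ae_of_ae_map (f := fun p : W => p.2.1) (by fun_prop) (h2 ▸ ae_supp)
      have a3 : ∀ᵐ p ∂π, p.2.2 ∈ supp :=
        ae_of_ae_map (f := fun p : W => p.2.2) (by fun_prop) (h3 ▸ ae_supp)
      filter_upwards [a1, a2, a3] with p b1 b2 b3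
      exact cost_le b1 b2 b3
  rw [h, pi0_cost]

lemma kant_lt_top : kantorovich mu < ⊤ := by
  have h := kant_eq
  refine lt_top_iff_ne_top.2 fun e => ?_
  have : (3 : ℝ≥0∞) * ∫⁻ x, gg x ∂mu = ⊤ := by rw [← h, e]; simp
  exact ENNReal.mul_ne_top (by simp) lintegral_gg_ne_top this

lemma no_monge (T2 T3 : V → V) (m2 : Measurable T2) (m3 : Measurable T3)
    (h2 : mu.map T2 = mu) (h3 : mu.map T3 = mu) :
    kantorovich mu < ∫⁻ x, coulomb x (T2 x) (T3 x) ∂mu := by
  by_contra hcon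
  rw [not_lt] at hcon
  have hint := lint_gg mu measurable_id m2 m3 Measure.map_id h2 h3
  have a2 : ∀ᵐ x ∂mu, T2 x ∈ supp := ae_of_ae_map m2.aemeasurable (h2.symm ▸ ae_supp)
  have a3 : ∀ᵐ x ∂mu, T3 x ∈ supp := ae_of_ae_map m3.aemeasurable (h3.symm ▸ ae_supp)
  have hle : (fun x => gg x + gg (T2 x) + gg (T3 x)) ≤ᵐ[mu]
      fun x => coulomb x (T2 x) (T3 x) + 3 := by
    filter_upwards [ae_supp, a2, a3] with x b1 b2 b3
    exact cost_le b1 b2 b3
  have heq := ae_eq_of_ae_le_of_lintegral_le hle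
    (by rw [show ∫⁻ x, (gg x + gg (T2 x) + gg (T3 x)) ∂mu = 3 * ∫⁻ x, gg x ∂mu from hint]
        exact ENNReal.mul_ne_top (by simp) lintegral_gg_ne_top)
    (by unfold coulomb; fun_prop)
    (by
      rw [show ∫⁻ x, (gg x + gg (T2 x) + gg (T3 x)) ∂mu = 3 * ∫⁻ x, gg x ∂mu from hint,
        lint_plus_three, ← kant_eq]
      exact add_le_add hcon le_rfl)
  -- each of the four partner sets is null
  have hnull : ∀ l, l ≠ Lab.a → mu {x | x ∈ A0 ∧ T2 x = Fl l x} = 0 := by
    intro l hl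
    set E := {x | x ∈ A0 ∧ T2 x = Fl l x} with hE
    have hEm : MeasurableSet E :=
      measurableSet_A0.inter (measurableSet_eq_fun m2 (measurable_Fl l))
    have hEs : E ⊆ A0 := fun x hx => hx.1
    have himg : MeasurableSet (Fl l '' E) :=
      hEm.image_of_continuousOn_injOn ((continuousOn_Fl l).mono hEs) ((injOn_Fl l).mono hEs)
    have h1 : mu E = 3⁻¹ * nu E := by
      rw [mu_of_subset_piece (l := .a) hEm hEs]; rfl
    have h6 : mu (Fl l '' E) = 6⁻¹ * nu E := by
      rw [mu_of_subset_piece himg (by rintro _ ⟨x, hx, rfl⟩; exact Fl_mem (hEs hx))]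
      have hw : wt l = 6⁻¹ := by cases l <;> simp_all [wt]
      rw [hw]
      congr 1
      apply le_antisymm
      · rw [← zero_add (nu E), ← nu_compl]
        refine (measure_mono ?_).trans (measure_union_le _ _)
        intro x hx
        by_cases hA : x ∈ A0
        · obtain ⟨y, hy, he⟩ := hx
          exact .inr (injOn_Fl l (hEs hy) hA he ▸ hy)
        · exact .inl hA
      · exact measure_mono fun x hx => mem_image_of_mem _ hx
    have hsub : mu E ≤ mu (Fl l '' E) := by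
      conv_rhs => rw [← h2, Measure.map_apply m2 himg]
      exact measure_mono fun x hx => ⟨x, hx, hx.2.symm⟩
    rw [h1, h6, three_eq, add_mul] at hsub
    have hfin : (6:ℝ≥0∞)⁻¹ * nu E ≠ ⊤ := ENNReal.mul_ne_top (by simp) (measure_ne_top _ _)
    have h0 : (6:ℝ≥0∞)⁻¹ * nu E = 0 := by
      have := ENNReal.add_le_add_iff_left hfin (b := (6:ℝ≥0∞)⁻¹ * nu E) (c := 0)
      rw [add_zero] at this
      exact nonpos_iff_eq_zero.1 (this.1 hsub)
    rw [h1, three_eq, add_mul, h0, add_zero]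
  have hA : mu A0 = 3⁻¹ := by
    rw [mu_of_subset_piece (l := .a) measurableSet_A0 subset_rfl]
    simp only [wt, Fl_a, preimage_id]
    rw [(prob_compl_eq_zero_iff measurableSet_A0).1 nu_compl, mul_one]
  have hz : mu A0 = 0 := by
    refine measure_mono_null (t := (⋃ l ∈ {l : Lab | l ≠ Lab.a}, {x | x ∈ A0 ∧ T2 x = Fl l x})
      ∪ {x | ¬ (T2 x ∈ supp ∧ T3 x ∈ supp ∧
        gg x + gg (T2 x) + gg (T3 x) = coulomb x (T2 x) (T3 x) + 3)}) ?_ ?_
    · intro x hx
      by_cases h : T2 x ∈ supp ∧ T3 x ∈ supp ∧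
          gg x + gg (T2 x) + gg (T3 x) = coulomb x (T2 x) (T3 x) + 3
      · obtain ⟨l, hl, e⟩ := cost_eq hx h.1 h.2.1 h.2.2
        exact .inl (mem_biUnion hl ⟨hx, e⟩)
      · exact .inr h
    · refine measure_union_null ((measure_biUnion_null_iff (to_countable _)).2 hnull) ?_
      have : ∀ᵐ x ∂mu, T2 x ∈ supp ∧ T3 x ∈ supp ∧
          gg x + gg (T2 x) + gg (T3 x) = coulomb x (T2 x) (T3 x) + 3 := by
        filter_upwards [a2, a3, heq] with x b2 b3 b4
        exact ⟨b2, b3, b4⟩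
      exact ae_iff.1 this
  rw [hA] at hz
  simp at hz

lemma vol_ac_hausdorff :
    (volume : Measure V) ≪ μH[((3 : ℕ) : ℝ)] ∧ μH[((3 : ℕ) : ℝ)] ≪ (volume : Measure V) :=
  ⟨absolutelyContinuous_isAddHaarMeasure _ _, absolutelyContinuous_isAddHaarMeasure _ _⟩

lemma lip_null {K : NNReal} {f : V → V} {t : Set V} (hf : LipschitzOnWith K f t)
    (ht : volume t = 0) : volume (f '' t) = 0 := by
  obtain ⟨h1, h2⟩ := vol_ac_hausdorff
  apply h1
  have := hf.hausdorffMeasure_image_le (d := ((3 : ℕ) : ℝ)) (by positivity)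
  rw [h2 ht, mul_zero] at this
  exact nonpos_iff_eq_zero.1 this

lemma mu_ac : mu ≪ volume := by
  refine Measure.AbsolutelyContinuous.mk fun s hs h0 => ?_
  rw [mu_apply hs]
  refine Finset.sum_eq_zero fun l _ => ?_
  have key : volume (Fl l ⁻¹' s ∩ A0) = 0 := by
    cases l with
    | a => exact measure_mono_null inter_subset_left h0
    | b i =>
      refine measure_mono_null ?_ (lip_null ((lip_invY i).mono (inter_subset_right (s := s)))
        (measure_mono_null inter_subset_left h0))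
      rintro x ⟨hx, hA⟩
      exact ⟨Fl (.b i) x, ⟨hx, Fl_mem hA⟩, by rw [Fl_b i hA, invY_Y i hA]⟩
    | c i =>
      refine measure_mono_null ?_ (lip_null ((lip_invZ i).mono (inter_subset_right (s := s)))
        (measure_mono_null inter_subset_left h0))
      rintro x ⟨hx, hA⟩
      exact ⟨Fl (.c i) x, ⟨hx, Fl_mem hA⟩, by rw [Fl_c i hA, invZ_Z i hA]⟩
  rw [nu, Measure.smul_apply, Measure.restrict_apply (measurable_Fl l hs), key]
  simp

end Vale.Agent.P121
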